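import Vale.Agent.N017.Main

/-!
# P017: `X₀(15)(K)` is finite for `25/48` of the imaginary quadratic fields `K`
-/

namespace Vale.Agent.Results.P017.A0HalfOfFields

open Vale.Agent.N017 Vale.Agent.N004

/-- Order the imaginary quadratic fields `K` by the absolute value of the discriminant `D`.
(1) `X₀(15)(K)` is finite for the proportion `25/48`, of rank `0` for `25/48`, of rank `1` for
`23/48` of them. (2) In every residue class: it is finite for the proportion `1` of the good `D` and
of rank `1` for the proportion `1` of the other `D`. (3) The analytic rank of the twist by `D` is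
even exactly for the good `D`, and it is the rank of `X₀(15)(K)` when it is at most `1`. -/
theorem result :
    (Proportion (fun _ => True) IsFin (25 / 48) ∧ Proportion (fun _ => True) (RankIs 0) (25 / 48) ∧
      Proportion (fun _ => True) (RankIs 1) (23 / 48)) ∧
    (∀ (m : ℕ) (c : ℤ), 0 < m →
      ((∃ D, IsDisc D ∧ D ≡ c [ZMOD m] ∧ Good D) →
        Proportion (fun D => D ≡ c [ZMOD m] ∧ Good D) IsFin 1) ∧
      ((∃ D, IsDisc D ∧ D ≡ c [ZMOD m] ∧ ¬ Good D) →
        Proportion (fun D => D ≡ c [ZMOD m] ∧ ¬ Good D) (RankIs 1) 1)) ∧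
    ∀ D, IsDisc D → ∃ r : ℕ, IsAnRank (twist (-12987) (-263466) D) r ∧ (Even r ↔ Good D) ∧
      (r ≤ 1 → RankIs r D) := main

end Vale.Agent.Results.P017.A0HalfOfFields
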